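import Crest.Agent.X262.Emb11.Defs
import Crest.Agent.X262.Vb37.Univ
import Crest.Agent.X262.Bub96.NormB
import Crest.Agent.X262.Tr89.Pb

/-!
# Row 262, road B, EMB (helper43): the universal datum with one more factor

* `Fr k u`   : `F = k(u)` is purely transcendental; `exists_fr`, `Fr.sub`;
* `cf`, `ext` : the generic forms of the new factor and the extended datum;
* `rn_sq`    : degrees in a commutative square;
* `univStmt : Emb.UnivStmt`.
-/

set_option autoImplicit false
set_option linter.unusedSectionVars false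
set_option linter.style.haveILetI false

noncomputable section

namespace Crest.Agent.X262.Emb43

open Crest.Agent.X277 Crest.Agent.X277.BD Polynomial
open Crest.Agent.X262.Vb Crest.Agent.X262.Emb
open Crest.Agent.X262.Div (rn)
open IntermediateField (adjoin)
open Set (range)
open List (replicate)

/-- `F = k(u)` is purely transcendental -/
structure Fr (k : Type) {F : Type} [Field k] [Field F] [Algebra k F] {m : ℕ} (u : Fin m → F) :
    Prop where
  ind : AlgebraicIndependent k u
  gen : adjoin k (range u) = ⊤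

theorem exists_fr (k : Type) [Field k] [Algebra ℂ k] (m : ℕ) : ∃ (F : Type) (_ : Field F)
    (_ : Algebra ℂ F) (_ : Algebra k F) (_ : IsScalarTower ℂ k F) (u : Fin m → F), Fr k u := by
  let R := MvPolynomial (Fin m) k
  let F := FractionRing R
  let u : Fin m → F := fun i => algebraMap R F (MvPolynomial.X i)
  have h : (MvPolynomial.aeval u : R →ₐ[k] F) = IsScalarTower.toAlgHom k R F := by
    ext i
    exact MvPolynomial.aeval_X _ _
  refine ⟨F, inferInstance, inferInstance, inferInstance, inferInstance, u, ?_, ?_⟩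
  · rw [algebraicIndependent_iff_injective_aeval, h]
    exact IsFractionRing.injective R F
  · rw [eq_top_iff]
    intro t _
    obtain ⟨r, s, -, rfl⟩ := IsFractionRing.div_surjective (A := R) t
    have key : ∀ r : R, algebraMap R F r ∈ adjoin k (range u) := fun r =>
      IntermediateField.algebra_adjoin_le_adjoin k _ (by
        rw [Algebra.adjoin_range_eq_range_aeval, h]
        exact ⟨r, rfl⟩)
    exact div_mem (key r) (key s)

section Sq

variable {K₀ K L₀ L : Type} [Field K₀] [Algebra ℂ K₀] [Algebra.EssFiniteType ℂ K₀] [Field K]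
  [Algebra ℂ K] [Algebra.EssFiniteType ℂ K] [Field L₀] [Algebra ℂ L₀] [Algebra.EssFiniteType ℂ L₀]
  [Field L] [Algebra ℂ L] [Algebra.EssFiniteType ℂ L]

/-- degrees in a commutative square with finite vertical maps -/
theorem rn_sq {θ : K₀ →ₐ[ℂ] K} {θ' : L₀ →ₐ[ℂ] L} {β : K₀ →ₐ[ℂ] L₀} {α : K →ₐ[ℂ] L}
    (h : θ'.comp β = α.comp θ) (hθ : 0 < deg θ) (l : List (BD ℂ L₀))
    (hl : l.length + dim ℂ K₀ = dim ℂ L₀) :
    deg θ' * rn β l = deg θ * rn α (l.map (pb θ')) := by
  obtain ⟨H, h1, -⟩ := Geo.exists_model (k := ℂ) (F := K₀) Free.zero ∅ (by simp) []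
  have h2 : 0 < bnum (replicate (dim ℂ K₀) H) := bnum_pos (by simp) fun x hx =>
    List.eq_of_mem_replicate hx ▸ ⟨h1.free.nef, h1.big⟩
  generalize hlam : replicate (dim ℂ K₀) H = lam at h2
  have h3 : lam.length = dim ℂ K₀ := by simp [← hlam]
  have e1 := Div.bnum_rn α (l.map (pb θ')) (lam := lam.map (pb θ))
    (by rw [List.length_map, h3, (deg_pos_iff θ).1 hθ])
  have e2 := Div.bnum_rn θ [] h3
  have e3 := Div.bnum_rn θ' [] (lam := l ++ lam.map (pb β)) (by simp [h3, hl])
  have e4 := Div.bnum_rn β l h3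
  rw [List.nil_append, Div.rn_nil] at e2 e3
  have e5 : (lam.map (pb β)).map (pb θ') = (lam.map (pb θ)).map (pb α) := by
    rw [List.map_map, List.map_map]
    exact List.map_congr_left fun a _ => by simp only [Function.comp_apply, pb_pb, h]
  rw [List.map_append, e5, e1, e2, e4] at e3
  refine mul_left_cancel₀ h2.ne' ?_
  linear_combination -e3

end Sq

section Cf

variable {ι : Type} [Fintype ι] [DecidableEq ι] {n m : ℕ} (e : Fin (m + 1) ≃ ι × Fin (n + 1))
  {R S : Type} [CommRing R] [CommRing S]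

/-- the coefficients -/
def cf (u : Fin m → R) : ι × Fin (n + 1) → R := fun p => (Fin.cons 1 u : Fin (m + 1) → R) (e.symm p)

/-- the forms -/
def fm (u : Fin m → R) (i : ι) : R[X] := ∑ l : Fin (n + 1), monomial l (cf e u (i, l))

theorem cf_zero (u : Fin m → R) : cf e u (e 0) = 1 := by simp [cf]

theorem cf_succ (u : Fin m → R) (i : Fin m) : cf e u (e i.succ) = u i := by simp [cf]

theorem map_cf (φ : R →+* S) (u : Fin m → R) (p : ι × Fin (n + 1)) :
    φ (cf e u p) = cf e (fun i => φ (u i)) p := by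
  obtain ⟨j, rfl⟩ := e.surjective p
  refine Fin.cases ?_ (fun j => ?_) j
  · rw [cf_zero, cf_zero, map_one]
  · rw [cf_succ, cf_succ]

theorem coeff_fm (u : Fin m → R) (i : ι) (l : Fin (n + 1)) :
    (fm e u i).coeff l = cf e u (i, l) := by
  simp [fm, coeff_monomial, Fin.val_inj]

theorem natDegree_fm (u : Fin m → R) (i : ι) : (fm e u i).natDegree ≤ n :=
  natDegree_sum_le_of_forall_le _ _ fun l _ =>
    (natDegree_monomial_le _).trans (Nat.lt_succ_iff.mp l.2)

theorem map_fm (φ : R →+* S) (u : Fin m → R) (i : ι) :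
    (fm e u i).map φ = fm e (fun i => φ (u i)) i := by
  simp only [fm, Polynomial.map_sum, map_monomial, map_cf]

theorem lead_fm {i₀ : ι} (he : e 0 = (i₀, Fin.last n)) (u : Fin m → R) :
    (fm e u i₀).coeff n = 1 :=
  (coeff_fm e u i₀ (Fin.last n)).trans (he ▸ cf_zero e u)

variable {k F : Type} [Field k] [Field F] [Algebra k F] {u : Fin m → F}

theorem span_fm [Nontrivial ι] {i₀ : ι} (he : e 0 = (i₀, Fin.last n))
    (h : AlgebraicIndependent k u) : Ideal.span (range (fm e u)) = ⊤ := by
  by_cases hn : n = 0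
  · refine Ideal.eq_top_of_isUnit_mem _ (Ideal.subset_span ⟨i₀, rfl⟩) ?_
    have h1 := natDegree_fm e u i₀
    have h2 := lead_fm e he u
    subst hn
    rw [eq_C_of_natDegree_le_zero h1, h2]
    simp
  obtain ⟨i₁, hi⟩ := exists_ne i₀
  obtain ⟨p, q, -, -, h1⟩ := exists_mul_add_mul_eq_C_resultant _ _
    (natDegree_fm e u i₀) (natDegree_fm e u i₁) (Or.inl hn)
  refine Ideal.eq_top_of_isUnit_mem _ (h1 ▸ Ideal.add_mem _
    (Ideal.mul_mem_right _ _ (Ideal.subset_span (Set.mem_range_self i₀)))
    (Ideal.mul_mem_right _ _ (Ideal.subset_span (Set.mem_range_self i₁))))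
    (isUnit_C.mpr (Ne.isUnit ?_))
  have h2 : ∀ i, fm e u i = (fm e (MvPolynomial.X : Fin m → MvPolynomial (Fin m) k) i).map
      (MvPolynomial.aeval u : MvPolynomial (Fin m) k →ₐ[k] F).toRingHom := fun i => by
    rw [map_fm]
    simp
  rw [h2, h2, resultant_map_map]
  refine (map_ne_zero_iff _ h).2 fun h0 => ?_
  let v : Fin m → k := fun j => if e j.succ = (i₁, 0) then 1 else 0
  have h3 := congrArg (MvPolynomial.eval v) h0
  rw [← resultant_map_map, map_fm, map_fm, map_zero] at h3
  have h4 : ∀ l, cf e (fun j => MvPolynomial.eval v (MvPolynomial.X j)) (i₁, l) =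
      if l = 0 then 1 else 0 := fun l => by
    obtain ⟨j, hj⟩ := e.surjective (i₁, l)
    revert hj
    refine Fin.cases (fun hj => (hi (congrArg Prod.fst (hj.symm.trans he))).elim) (fun j hj => ?_) j
    rw [← hj, cf_succ, MvPolynomial.eval_X]
    simp only [v, hj, Prod.mk.injEq, true_and]
  have h5 : fm e (fun j => MvPolynomial.eval v (MvPolynomial.X j)) i₁ = 1 := by
    simp only [fm, h4, apply_ite, map_zero, Finset.sum_ite_eq', Finset.mem_univ, if_true]
    simp
  rw [h5, resultant_one_right, lead_fm e he] at h3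
  simp at h3

theorem mxf_cf {k' : Type} [Field k'] [Algebra k' F] (u : Fin m → F) :
    mxf k' (cf e u) = mxf k' (Fin.cons 1 u : Fin (m + 1) → F) :=
  eq_mxf (fun j => by simpa [cf] using mem_Sec_mxf (k := k') (cf e u) (e j)) fun V =>
    (exists_val_mxf (k := k') ⟨e 0, (cf_zero e u).trans_ne one_ne_zero⟩ V).elim fun p hp => ⟨e.symm p, hp⟩

theorem ind_cf [Infinite k] (h : AlgebraicIndependent k u) (a : ι × Fin (n + 1) → k)
    (ha : ∑ x, algebraMap k F (a x) * cf e u x = 0) : a = 0 := by
  have h1 : Tr89.PInd k (cf e u) := (Tr89.pind_of_algInd (x := (Fin.cons 1 u : Fin (m + 1) → F))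
    (by simp) (by simpa using h)).comp e.symm.injective
  have h2 := h1 1 (∑ x, a x • MvPolynomial.X x) (MvPolynomial.IsHomogeneous.sum _ _ _ fun x _ => by
    rw [MvPolynomial.smul_eq_C_mul]
    exact (MvPolynomial.isHomogeneous_X k x).C_mul _) (by
      simpa [Algebra.smul_def] using ha)
  exact funext (Fintype.linearIndependent_iff.1 (MvPolynomial.linearIndependent_X _ k) a h2)

end Cf

section Ext

variable {J : Type} [Fintype J] [DecidableEq J] {io : Option J → Type} [∀ j, Fintype (io j)]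
  [∀ j, DecidableEq (io j)] {d : J → ℕ} {n m : ℕ} [Nontrivial (io none)]
  {e : Fin (m + 1) ≃ io none × Fin (n + 1)} {i₀ : io none} (he : e 0 = (i₀, Fin.last n))
  {I k F : Type} [Field k] [Algebra ℂ k] [Field F] [Algebra ℂ F] [Algebra k F]
  [IsScalarTower ℂ k F] {u : Fin m → F}

/-- the datum extended by generic forms -/
def ext (h : AlgebraicIndependent k u) (ξ : Dat (bs io) d I k) : Dat io (exd d n) I F where
  f j := match j with
    | none => fm e u
    | some j => (ξ.map (IsScalarTower.toAlgHom ℂ k F)).f j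
  x := (ξ.map (IsScalarTower.toAlgHom ℂ k F)).x
  cp := ⟨fun j => match j with
    | none => natDegree_fm e u
    | some j => (ξ.map _).cp.1 j, fun j => match j with
    | none => ⟨i₀, (lead_fm e he u).trans_ne one_ne_zero⟩
    | some j => (ξ.map _).cp.2.1 j, fun j => match j with
    | none => span_fm e he h
    | some j => (ξ.map _).cp.2.2 j⟩

theorem coef_ext (h : AlgebraicIndependent k u) (ξ : Dat (bs io) d I k) :
    coef (ext he h ξ) = cf e u := funext fun x => coeff_fm e u x.1 x.2

variable [Algebra.EssFiniteType ℂ k] [Algebra.EssFiniteType ℂ F]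

theorem Fr.dim (h : Fr k u) : dim ℂ F = dim ℂ k + m := by
  haveI : CharZero k := charZero_of_injective_algebraMap (algebraMap ℂ k).injective
  haveI := Lin62.eft_of_top h.gen
  rw [Loc.dim_tower ℂ k F, Tr89.dim_eq_card h.gen h.ind, Fintype.card_fin]

theorem Fr.rn_one (h : Fr k u) :
    rn (IsScalarTower.toAlgHom ℂ k F) (replicate m (mxf ℂ (cf e u))) = 1 := by
  haveI : CharZero k := charZero_of_injective_algebraMap (algebraMap ℂ k).injective
  haveI := Lin62.eft_of_top h.gen
  rw [Div.rn_tower, List.map_replicate, up_mxf, mxf_cf]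
  exact Tr89.bnum_proj (by simp) (by simpa using h.gen)
    (by rw [Tr89.dim_eq_card h.gen h.ind, Fintype.card_fin])

theorem univ_ext [Fintype I] (hm : m = Emb.mp io n) (h : Fr k u) {ξ : Dat (bs io) d I k}
    (hu : ξ.Univ) : (ext he h.ind ξ).Univ := by
  have h3 := Vb37.univ_card hu
  obtain ⟨⟨a, b, c, h1, h2, h4⟩, h5, h6⟩ := hu
  refine ⟨⟨a, b, c, by simp [ext, Dat.map, h1], by simp [ext, Dat.map, h2],
    by simp [ext, Dat.map, h4]⟩, ?_, ?_⟩
  · have h7 : ∀ x, algebraMap k F x ∈ adjoin ℂ (ext he h.ind ξ).crd := fun x => by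
      have h8 : adjoin ℂ ξ.crd ≤
          (adjoin ℂ (ext he h.ind ξ).crd).comap (IsScalarTower.toAlgHom ℂ k F) := by
        refine IntermediateField.adjoin_le_iff.2 fun t ht => IntermediateField.subset_adjoin _ _ ?_
        have h9 : IsScalarTower.toAlgHom ℂ k F t ∈ (ξ.map (IsScalarTower.toAlgHom ℂ k F)).crd := by
          rw [Vb37.crd_map]
          exact ⟨t, ht, rfl⟩
        rcases h9 with ⟨j, h9⟩ | h9
        · exact .inl ⟨some j, h9⟩
        · exact .inr h9
      exact h8 (h5 ▸ IntermediateField.mem_top)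
    rw [eq_top_iff]
    intro t _
    have ht : t ∈ adjoin k (range u) := h.gen ▸ IntermediateField.mem_top
    induction ht using IntermediateField.adjoin_induction with
    | mem x hx =>
      obtain ⟨i, rfl⟩ := hx
      refine IntermediateField.subset_adjoin _ _
        (.inl ⟨none, (e i.succ).1, i₀, (e i.succ).2, n, ?_⟩)
      change u i = (fm e u _).coeff _ / (fm e u i₀).coeff n
      rw [lead_fm e he, div_one, coeff_fm, cf_succ]
    | algebraMap x => exact h7 x
    | add x y _ _ hx hy => exact add_mem (hx trivial) (hy trivial)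
    | inv x _ hx => exact inv_mem (hx trivial)
    | mul x y _ _ hx hy => exact mul_mem (hx trivial) (hy trivial)
  · rw [trdeg_eq_dim] at h6 ⊢
    rw [h.dim, Nat.cast_inj.1 h6, mdim, mdim, Fintype.sum_option, hm, Emb.mp]
    congr 1
    change _ = Fintype.card (io none) * (n + 1) - 1 +
      ∑ j, (Fintype.card (bs io j) * (d j + 1) - 1) + Fintype.card I - 3
    omega

end Ext

/-- **the universal datum with one more factor** -/
theorem univStmt : UnivStmt := by
  intro J _ _ io _ _ d n N hio M I K₀ K _ _ _ _ _ _ _ _ ξ₀ θ ξ m hu hθ hm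
  obtain ⟨i₀⟩ : Nonempty (io none) := inferInstance
  have hc : Fintype.card (Fin (Emb.mp io n + 1)) = Fintype.card (io none × Fin (n + 1)) := by
    have : 0 < Fintype.card (io none) * (n + 1) := Nat.mul_pos Fintype.card_pos n.succ_pos
    rw [Fintype.card_fin, Fintype.card_prod, Fintype.card_fin, Emb.mp]
    omega
  obtain ⟨e, he⟩ : ∃ e : Fin (Emb.mp io n + 1) ≃ io none × Fin (n + 1), e 0 = (i₀, Fin.last n) :=
    ⟨(Equiv.swap 0 ((Fintype.equivOfCardEq hc).symm (i₀, Fin.last n))).trans
      (Fintype.equivOfCardEq hc), by simp⟩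
  obtain ⟨F, _, _, _, _, u, h⟩ := exists_fr K (Emb.mp io n)
  haveI := Lin62.eft_of_top h.gen
  haveI : Algebra.EssFiniteType ℂ F := .comp ℂ K F
  letI : Algebra K₀ K := θ.toRingHom.toAlgebra
  haveI : IsScalarTower ℂ K₀ K := .of_algebraMap_eq fun c => (θ.commutes c).symm
  letI : Algebra K₀ F := ((algebraMap K F).comp (algebraMap K₀ K)).toAlgebra
  haveI : IsScalarTower K₀ K F := .of_algebraMap_eq fun _ => rfl
  haveI : IsScalarTower ℂ K₀ F := .of_algebraMap_eq fun c => by
    rw [IsScalarTower.algebraMap_apply K₀ K F, ← IsScalarTower.algebraMap_apply ℂ K₀ K,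
      ← IsScalarTower.algebraMap_apply]
  let L₀ := adjoin K₀ (range u)
  let u₀ : Fin (Emb.mp io n) → L₀ := fun i => ⟨u i, IntermediateField.subset_adjoin _ _ ⟨i, rfl⟩⟩
  have h₀ : Fr K₀ u₀ := ⟨AlgebraicIndependent.of_comp L₀.val
    (h.ind.restrictScalars (algebraMap K₀ K).injective), Lin62.adjoin_sub u⟩
  haveI := Lin62.eft_of_top h₀.gen
  haveI : Algebra.EssFiniteType ℂ L₀ := .comp ℂ K₀ L₀
  obtain ⟨L, _, _, _, _, _, r, η, h1, h2⟩ := Bub96.exists_nrm (ext he h.ind ξ) N
  haveI : Algebra.EssFiniteType ℂ L := .comp ℂ F L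
  let τ := IsScalarTower.toAlgHom ℂ F L
  let ι : L₀ →ₐ[ℂ] F := L₀.val.restrictScalars ℂ
  have hτ : dim ℂ L = dim ℂ F := (deg_pos_iff τ).1 (by rw [deg_tower]; exact Module.finrank_pos)
  have h3 : (ext he h₀.ind ξ₀).map ι = (ext he h.ind ξ).res m := by
    have h4 : (ξ₀.map (IsScalarTower.toAlgHom ℂ K₀ L₀)).map ι =
        (ξ.res m).map (IsScalarTower.toAlgHom ℂ K F) := by
      rw [hm, Vb37.dmap_map, Vb37.dmap_map]
      rfl
    refine Vb37.dat_ext (funext fun j => ?_) (congrArg Dat.x h4 :)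
    cases j with
    | none => exact funext fun i => map_fm e _ u₀ i
    | some j => exact congrFun (congrArg Dat.f h4) j
  have h4 : coef η = fun x => τ (cf e u x) := funext fun x => by
    have h5 := congrArg (fun ζ => coef ζ x) h1
    exact h5.trans ((coeff_map _ _).trans (congrArg τ (coeff_fm e u x.1 x.2)))
  refine ⟨L₀, inferInstance, inferInstance, ‹_›, L, inferInstance, inferInstance, ‹_›, τ.comp ι,
    τ.comp (IsScalarTower.toAlgHom ℂ K F), _, inferInstance,
    Sum.inl, η, ?_, h2, ⟨_, univ_ext he rfl h₀ hu, ?_⟩, ?_, by rw [hτ, h.dim], fun a ha => ?_, ?_⟩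
  · rw [h1, ← Vb37.dmap_map]
    rfl
  · rw [← Vb37.dmap_map, h3]
    change Dat.Eqv _ ((η.res Sum.inl).res m)
    rw [h1]
    exact Vb37.eqv_refl _
  · rw [deg_pos_iff, hτ, h.dim, h₀.dim, (deg_pos_iff θ).1 hθ]
  · haveI : Infinite K := .of_injective _ (algebraMap ℂ K).injective
    refine ind_cf e h.ind a (τ.injective ?_)
    simpa [h4] using ha
  · have h5 := rn_sq (θ := θ) (θ' := τ.comp ι) (β := IsScalarTower.toAlgHom ℂ K₀ L₀)
      (α := τ.comp (IsScalarTower.toAlgHom ℂ K F)) rfl hθ (replicate (Emb.mp io n) (mxf ℂ (cf e u₀)))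
      (by rw [List.length_replicate, h₀.dim, add_comm])
    rw [h₀.rn_one, mul_one, List.map_replicate, pb_mxf] at h5
    rw [h5, h4]
    congr 4
    exact funext fun x => congrArg τ (map_cf e (ι : L₀ →+* F) u₀ x)

end Crest.Agent.X262.Emb43
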